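import Mathlib

/-!
Words: a tensor which is killed by all symmetrisations over `M + 1` places and by all column
antisymmetrisations with `M` columns is zero.
-/

namespace Vale.Agent.P181.FLAT.H722

open Finset

variable {D n M : ℕ}

/-- the length of the longest weakly increasing subword ending at the place `i` -/
noncomputable def ht (w : Fin D → Fin n) (i : Fin D) : ℕ := by
  classical
  exact ((univ : Finset (Finset (Fin D))).filter
    (fun Q : Finset (Fin D) => i ∈ Q ∧ (∀ j ∈ Q, j ≤ i) ∧ MonotoneOn w (Q : Set (Fin D)))).sup card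

lemma le_ht {w : Fin D → Fin n} {i : Fin D} {Q : Finset (Fin D)} (h1 : i ∈ Q)
    (h2 : ∀ j ∈ Q, j ≤ i) (h3 : MonotoneOn w (Q : Set (Fin D))) : Q.card ≤ ht w i := by
  classical
  unfold ht
  exact Finset.le_sup (f := card) (Finset.mem_filter.2 ⟨Finset.mem_univ _, h1, h2, h3⟩)

lemma ht_pos (w : Fin D → Fin n) (i : Fin D) : 1 ≤ ht w i := by
  have := le_ht (w := w) (i := i) (Q := {i}) (by simp) (by simp) (by simp)
  simpa using this

lemma exists_ht (w : Fin D → Fin n) (i : Fin D) :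
    ∃ Q : Finset (Fin D), i ∈ Q ∧ (∀ j ∈ Q, j ≤ i) ∧ MonotoneOn w (Q : Set (Fin D)) ∧
      Q.card = ht w i := by
  classical
  have hne : ((univ : Finset (Finset (Fin D))).filter
    (fun Q : Finset (Fin D) => i ∈ Q ∧ (∀ j ∈ Q, j ≤ i) ∧ MonotoneOn w (Q : Set (Fin D)))).Nonempty :=
    ⟨{i}, by simp⟩
  obtain ⟨Q, hQ, h⟩ := Finset.exists_mem_eq_sup _ hne card
  rw [Finset.mem_filter] at hQ
  refine ⟨Q, hQ.2.1, hQ.2.2.1, hQ.2.2.2, ?_⟩
  unfold ht
  exact h.symm

lemma ht_lt {w : Fin D → Fin n} {i j : Fin D} (hij : i < j) (hw : w i ≤ w j) :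
    ht w i < ht w j := by
  classical
  obtain ⟨Q, h1, h2, h3, h4⟩ := exists_ht w i
  have hj : j ∉ Q := fun h => absurd (h2 j h) (not_le.2 hij)
  have h5 : (insert j Q).card ≤ ht w j := by
    apply le_ht (Finset.mem_insert_self _ _)
    · intro k hk
      rcases Finset.mem_insert.1 hk with rfl | hk
      · exact le_rfl
      · exact (h2 k hk).trans hij.le
    · intro a ha b hb hab
      rcases Finset.mem_insert.1 (Finset.mem_coe.1 ha) with ha' | ha'
      · rcases Finset.mem_insert.1 (Finset.mem_coe.1 hb) with hb' | hb'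
        · rw [ha', hb']
        · exact absurd ((ha' ▸ hab).trans (h2 b hb')) (not_le.2 hij)
      · rcases Finset.mem_insert.1 (Finset.mem_coe.1 hb) with hb' | hb'
        · rw [hb']
          exact (h3 (Finset.mem_coe.2 ha') (Finset.mem_coe.2 h1) (h2 a ha')).trans hw
        · exact h3 (Finset.mem_coe.2 ha') (Finset.mem_coe.2 hb') hab
  rw [Finset.card_insert_of_notMem hj, h4] at h5
  omega

/-- the space cut out by the symmetrisations -/
def InX (M : ℕ) (y : (Fin D → Fin n) → ℂ) : Prop :=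
  ∀ P : Finset (Fin D), P.card = M + 1 → ∀ w,
    ∑ σ : Equiv.Perm {i // i ∈ P}, y (w ∘ σ.ofSubtype) = 0

/-- the leading words of `InX` have no weakly increasing subword of length `M + 1` -/
lemma lex_ge {w : Fin D → Fin n} {P : Finset (Fin D)} (hP : MonotoneOn w (P : Set (Fin D)))
    (σ : Equiv.Perm {i // i ∈ P}) : toLex w ≤ toLex (w ∘ σ.ofSubtype) := by
  classical
  by_contra hlt
  rw [not_le] at hlt
  obtain ⟨i, hi, hwi⟩ := hlt
  change ∀ j < i, w (σ.ofSubtype j) = w j at hi
  change w (σ.ofSubtype i) < w i at hwi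
  have hiP : i ∈ P := by
    by_contra hiP
    rw [Equiv.Perm.ofSubtype_apply_of_not_mem σ hiP] at hwi
    exact lt_irrefl _ hwi
  set τ : Equiv.Perm (Fin D) := σ.ofSubtype with hτ
  have hτP : ∀ k ∈ P, τ k ∈ P := by
    intro k hk
    rw [hτ, Equiv.Perm.ofSubtype_apply_of_mem σ hk]
    exact (σ ⟨k, hk⟩).2
  set A : Finset (Fin D) := P.filter (fun k => w k ≤ w (τ i)) with hA
  have hAi : ∀ k ∈ A, k < i := by
    intro k hk
    rw [hA, Finset.mem_filter] at hk
    by_contra hki
    have h1 := hP (Finset.mem_coe.2 hiP) (Finset.mem_coe.2 hk.1) (not_lt.1 hki)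
    exact absurd (hwi.trans_le h1) (not_lt.2 hk.2)
  have hAA : ∀ k ∈ A, τ k ∈ A := by
    intro k hk
    have h1 := hAi k hk
    rw [hA, Finset.mem_filter] at hk ⊢
    exact ⟨hτP k hk.1, by rw [hi k h1]; exact hk.2⟩
  have hmap : A.image τ = A := by
    apply Finset.eq_of_subset_of_card_le
    · intro k hk
      obtain ⟨l, hl, rfl⟩ := Finset.mem_image.1 hk
      exact hAA l hl
    · rw [Finset.card_image_of_injective _ τ.injective]
  have hiA : τ i ∈ A := by
    rw [hA, Finset.mem_filter]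
    exact ⟨hτP i hiP, le_rfl⟩
  rw [← hmap] at hiA
  obtain ⟨k, hk, hki⟩ := Finset.mem_image.1 hiA
  have : k = i := τ.injective hki
  exact absurd (hAi k hk) (by rw [this]; exact lt_irrefl _)

lemma no_inc {y : (Fin D → Fin n) → ℂ} (hy : InX M y) {w : Fin D → Fin n} (hw : y w ≠ 0)
    (hmax : ∀ v, y v ≠ 0 → toLex v ≤ toLex w) {P : Finset (Fin D)} (hcard : P.card = M + 1) :
    ¬ MonotoneOn w (P : Set (Fin D)) := by
  classical
  intro hP
  have h := hy P hcard w
  have h2 : ∀ σ : Equiv.Perm {i // i ∈ P}, y (w ∘ σ.ofSubtype) =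
      if w ∘ σ.ofSubtype = w then y w else 0 := by
    intro σ
    split_ifs with h3
    · rw [h3]
    · by_contra h4
      have h5 := hmax _ h4
      have h6 := lex_ge hP σ
      exact h3 (toLex.injective (le_antisymm h5 h6))
  rw [Finset.sum_congr rfl (fun σ _ => h2 σ), Finset.sum_ite, Finset.sum_const_zero, add_zero,
    Finset.sum_const, nsmul_eq_mul] at h
  rcases mul_eq_zero.1 h with h7 | h7
  · have h8 : (1 : Equiv.Perm {i // i ∈ P}) ∈
        Finset.univ.filter (fun σ : Equiv.Perm {i // i ∈ P} => w ∘ σ.ofSubtype = w) := by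
      rw [Finset.mem_filter]
      refine ⟨Finset.mem_univ _, ?_⟩
      funext i
      simp
    have h9 : 0 < (Finset.univ.filter
      (fun σ : Equiv.Perm {i // i ∈ P} => w ∘ σ.ofSubtype = w)).card :=
      Finset.card_pos.2 ⟨_, h8⟩
    exact absurd (Nat.cast_eq_zero.1 h7) h9.ne'
  · exact hw h7

/-- the column antisymmetrisation of a word -/
noncomputable def uu (κ : Fin D → Fin M) (w : Fin D → Fin n) : (Fin D → Fin n) → ℂ := by
  classical
  exact fun v => ∑ σ : {σ : Equiv.Perm (Fin D) // κ ∘ σ = κ},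
    if v = w ∘ σ.1 then (Equiv.Perm.sign σ.1 : ℂ) else 0

lemma uu_swap (κ : Fin D → Fin M) (w v : Fin D → Fin n) {i j : Fin D} (hij : i ≠ j)
    (hκ : κ i = κ j) : uu κ w (v ∘ Equiv.swap i j) = - uu κ w v := by
  classical
  unfold uu
  rw [← Finset.sum_neg_distrib]
  have hsw : ∀ σ : Equiv.Perm (Fin D), κ ∘ σ = κ → κ ∘ (σ * Equiv.swap i j : Equiv.Perm (Fin D)) = κ := by
    intro σ hσ
    have h1 : κ ∘ (Equiv.swap i j : Equiv.Perm (Fin D)) = κ := by
      funext k
      by_cases hk : k = i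
      · subst hk; simp [hκ]
      · by_cases hk' : k = j
        · subst hk'; simp [hκ]
        · simp [Equiv.swap_apply_of_ne_of_ne hk hk']
    calc κ ∘ (σ * Equiv.swap i j : Equiv.Perm (Fin D))
        = (κ ∘ σ) ∘ (Equiv.swap i j : Equiv.Perm (Fin D)) := by
          funext k; simp
      _ = κ := by rw [hσ, h1]
  let e : {σ : Equiv.Perm (Fin D) // κ ∘ σ = κ} ≃ {σ : Equiv.Perm (Fin D) // κ ∘ σ = κ} :=
    { toFun := fun σ => ⟨σ.1 * Equiv.swap i j, hsw σ.1 σ.2⟩
      invFun := fun σ => ⟨σ.1 * Equiv.swap i j, hsw σ.1 σ.2⟩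
      left_inv := fun σ => by
        apply Subtype.ext
        simp [mul_assoc]
      right_inv := fun σ => by
        apply Subtype.ext
        simp [mul_assoc] }
  refine Finset.sum_bij' (fun σ _ => e σ) (fun σ _ => e.symm σ) (fun _ _ => Finset.mem_univ _)
    (fun _ _ => Finset.mem_univ _) (fun σ _ => e.symm_apply_apply σ)
    (fun σ _ => e.apply_symm_apply σ) ?_
  intro σ _
  have h1 : (e σ).1 = σ.1 * Equiv.swap i j := rfl
  have h2 : (v ∘ (Equiv.swap i j) = w ∘ σ.1) ↔ (v = w ∘ (e σ).1) := by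
    rw [h1]
    constructor
    · intro h
      funext k
      have := congrFun h (Equiv.swap i j k)
      simpa using this
    · intro h
      funext k
      have := congrFun h (Equiv.swap i j k)
      simpa using this
  by_cases h3 : v = w ∘ (e σ).1
  · rw [if_pos (h2.2 h3), if_pos h3, h1, Equiv.Perm.sign_mul, Equiv.Perm.sign_swap hij]
    simp
  · rw [if_neg (fun h => h3 (h2.1 h)), if_neg h3, neg_zero]

lemma uu_inX (κ : Fin D → Fin M) (w : Fin D → Fin n) : InX M (uu κ w) := by
  classical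
  intro P hP v
  have hcard : (Finset.univ : Finset (Fin M)).card < P.card := by
    rw [hP, Finset.card_univ, Fintype.card_fin]; omega
  obtain ⟨i, hi, j, hj, hij, hκ⟩ :=
    Finset.exists_ne_map_eq_of_card_lt_of_maps_to (s := P) (f := κ) hcard
      (fun a _ => Finset.mem_coe.2 (Finset.mem_univ _))
  have h1 : ∑ σ : Equiv.Perm {i // i ∈ P}, uu κ w (v ∘ σ.ofSubtype) =
      ∑ σ : Equiv.Perm {i // i ∈ P}, - uu κ w (v ∘ σ.ofSubtype) := by
    rw [← Equiv.sum_comp (Equiv.mulRight (Equiv.swap (⟨i, hi⟩ : {i // i ∈ P}) ⟨j, hj⟩))]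
    refine Finset.sum_congr rfl (fun σ _ => ?_)
    rw [Equiv.coe_mulRight]
    have h2 : v ∘ (σ * Equiv.swap (⟨i, hi⟩ : {i // i ∈ P}) ⟨j, hj⟩).ofSubtype =
        (v ∘ σ.ofSubtype) ∘ Equiv.swap i j := by
      rw [map_mul, Equiv.Perm.ofSubtype_swap_eq]
      rfl
    rw [h2, uu_swap κ w _ hij hκ]
  rw [Finset.sum_neg_distrib] at h1
  have h3 : (2 : ℂ) * ∑ σ : Equiv.Perm {i // i ∈ P}, uu κ w (v ∘ σ.ofSubtype) = 0 := by
    linear_combination h1
  rcases mul_eq_zero.1 h3 with h4 | h4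
  · norm_num at h4
  · exact h4

lemma uu_lead (κ : Fin D → Fin M) (w : Fin D → Fin n)
    (hdec : ∀ i j, i < j → κ i = κ j → w j < w i) :
    uu κ w w = 1 ∧ ∀ v, uu κ w v ≠ 0 → toLex v ≤ toLex w := by
  classical
  have key : ∀ σ : Equiv.Perm (Fin D), κ ∘ σ = κ → σ ≠ 1 → toLex (w ∘ σ) < toLex w := by
    intro σ hσ hne
    have hex : ∃ i, σ i ≠ i := by
      by_contra h
      push Not at h
      exact hne (Equiv.ext h)
    obtain ⟨i, hi, hmin⟩ := (Finset.univ.filter (fun i => σ i ≠ i)).exists_minimal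
      (by obtain ⟨i, hi⟩ := hex; exact ⟨i, by simpa using hi⟩)
    rw [Finset.mem_filter] at hi
    have hlt : ∀ j < i, σ j = j := by
      intro j hj
      by_contra h
      exact absurd (hmin (Finset.mem_filter.2 ⟨Finset.mem_univ j, h⟩) hj.le) (not_le.2 hj)
    have hgt : i < σ i := by
      rcases lt_trichotomy (σ i) i with h | h | h
      · have := hlt _ h
        exact absurd (σ.injective this) hi.2
      · exact absurd h hi.2
      · exact h
    refine ⟨i, fun j hj => ?_, ?_⟩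
    · change w (σ j) = w j
      rw [hlt j hj]
    · change w (σ i) < w i
      exact hdec i (σ i) hgt (congrFun hσ i).symm
  constructor
  · unfold uu
    rw [Finset.sum_eq_single (⟨1, by funext i; simp⟩ : {σ : Equiv.Perm (Fin D) // κ ∘ σ = κ})]
    · have : w = w ∘ (1 : Equiv.Perm (Fin D)) := by funext i; simp
      rw [if_pos this]
      simp
    · intro σ _ hσ
      rw [if_neg]
      intro h
      have h1 : σ.1 ≠ 1 := fun h2 => hσ (Subtype.ext h2)
      have h2 := key σ.1 σ.2 h1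
      rw [← h] at h2
      exact lt_irrefl _ h2
    · intro h
      exact absurd (Finset.mem_univ _) h
  · intro v hv
    unfold uu at hv
    obtain ⟨σ, _, hσ⟩ := Finset.exists_ne_zero_of_sum_ne_zero hv
    have h1 : v = w ∘ σ.1 := by
      by_contra h
      rw [if_neg h] at hσ
      exact hσ rfl
    by_cases h2 : σ.1 = 1
    · rw [h1, h2]
      exact le_of_eq (congrArg toLex (by funext i; simp))
    · rw [h1]
      exact (key σ.1 σ.2 h2).le

lemma pair_uu (x : (Fin D → Fin n) → ℂ) (κ : Fin D → Fin M) (w : Fin D → Fin n) :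
    ∑ v, x v * uu κ w v =
      ∑ σ : {σ : Equiv.Perm (Fin D) // κ ∘ σ = κ}, (Equiv.Perm.sign σ.1 : ℂ) * x (w ∘ σ.1) := by
  classical
  unfold uu
  simp_rw [Finset.mul_sum]
  rw [Finset.sum_comm]
  refine Finset.sum_congr rfl (fun σ _ => ?_)
  rw [Finset.sum_eq_single (w ∘ σ.1)]
  · rw [if_pos rfl, mul_comm]
  · intro v _ hv
    rw [if_neg hv, mul_zero]
  · intro h
    exact absurd (Finset.mem_univ _) h

lemma inX_sub {y z : (Fin D → Fin n) → ℂ} (hy : InX M y) (hz : InX M z) (c : ℂ) :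
    InX M (fun v => y v - c * z v) := by
  intro P hP w
  rw [Finset.sum_sub_distrib, ← Finset.mul_sum, hy P hP w, hz P hP w, mul_zero, sub_zero]

lemma pair_zero (x : (Fin D → Fin n) → ℂ)
    (hA : ∀ κ : Fin D → Fin M, ∀ w,
      ∑ σ : {σ : Equiv.Perm (Fin D) // κ ∘ σ = κ}, (Equiv.Perm.sign σ.1 : ℂ) * x (w ∘ σ.1) = 0) :
    ∀ (w : Lex (Fin D → Fin n)) (y : (Fin D → Fin n) → ℂ), InX M y →
      (∀ v, y v ≠ 0 → toLex v ≤ w) → ∑ v, x v * y v = 0 := by
  classical
  intro w
  induction w using WellFoundedLT.induction with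
  | ind w ih =>
    intro y hy hmax
    by_cases h0 : ∀ v, y v = 0
    · exact Finset.sum_eq_zero (fun v _ => by rw [h0 v, mul_zero])
    push Not at h0
    obtain ⟨v0, hv0⟩ := h0
    obtain ⟨w1, hw1, hw1max⟩ := Finset.exists_max_image (Finset.univ.filter (fun v => y v ≠ 0))
      (fun v => toLex v) ⟨v0, by simpa using hv0⟩
    rw [Finset.mem_filter] at hw1
    have hmax1 : ∀ v, y v ≠ 0 → toLex v ≤ toLex w1 := fun v hv =>
      hw1max v (Finset.mem_filter.2 ⟨Finset.mem_univ _, hv⟩)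
    have hht : ∀ i, ht w1 i ≤ M := by
      intro i
      by_contra h
      obtain ⟨Q, h1, h2, h3, h4⟩ := exists_ht w1 i
      obtain ⟨P, hPQ, hPc⟩ := Finset.exists_subset_card_eq (s := Q) (n := M + 1) (by omega)
      exact no_inc hy hw1.2 hmax1 hPc (h3.mono (Finset.coe_subset.2 hPQ))
    let κ : Fin D → Fin M := fun i => ⟨ht w1 i - 1, by have := hht i; have := ht_pos w1 i; omega⟩
    have hdec : ∀ i j, i < j → κ i = κ j → w1 j < w1 i := by
      intro i j hij hκ
      by_contra h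
      have h1 := ht_lt hij (not_lt.1 h)
      have h2 : ht w1 i - 1 = ht w1 j - 1 := congrArg Fin.val hκ
      have := ht_pos w1 i
      omega
    obtain ⟨hl1, hl2⟩ := uu_lead κ w1 hdec
    have hy' := inX_sub hy (uu_inX κ w1) (y w1)
    have hval : ∑ v, x v * (y v - y w1 * uu κ w1 v) = ∑ v, x v * y v := by
      have h1 : ∑ v, x v * (y v - y w1 * uu κ w1 v) =
          ∑ v, x v * y v - y w1 * ∑ v, x v * uu κ w1 v := by
        rw [Finset.mul_sum, ← Finset.sum_sub_distrib]
        exact Finset.sum_congr rfl (fun v _ => by ring)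
      rw [h1, pair_uu, hA κ w1, mul_zero, sub_zero]
    rw [← hval]
    by_cases h0' : ∀ v, y v - y w1 * uu κ w1 v = 0
    · exact Finset.sum_eq_zero (fun v _ => by rw [h0' v, mul_zero])
    push Not at h0'
    obtain ⟨v1, hv1⟩ := h0'
    obtain ⟨w2, hw2, hw2max⟩ := Finset.exists_max_image
      (Finset.univ.filter (fun v => y v - y w1 * uu κ w1 v ≠ 0))
      (fun v => toLex v) ⟨v1, by simpa using hv1⟩
    rw [Finset.mem_filter] at hw2
    have hlt : toLex w2 < toLex w1 := by
      have h1 : toLex w2 ≤ toLex w1 := by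
        by_cases h : y w2 ≠ 0
        · exact hmax1 w2 h
        · push Not at h
          apply hl2
          intro h3
          apply hw2.2
          rw [h, h3, mul_zero, sub_zero]
      refine lt_of_le_of_ne h1 (fun h2 => hw2.2 ?_)
      rw [toLex.injective h2, hl1, mul_one, sub_self]
    exact ih (toLex w2) (hlt.trans_le (hmax w1 hw1.2)) _ hy' (fun v hv =>
      hw2max v (Finset.mem_filter.2 ⟨Finset.mem_univ _, hv⟩))

/-- a tensor killed by all symmetrisations over `M + 1` places and by all column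
antisymmetrisations with `M` columns is zero -/
theorem words {D n M : ℕ} (x : (Fin D → Fin n) → ℂ)
    (hS : ∀ P : Finset (Fin D), P.card = M + 1 → ∀ w,
      ∑ σ : Equiv.Perm {i // i ∈ P}, x (w ∘ σ.ofSubtype) = 0)
    (hA : ∀ κ : Fin D → Fin M, ∀ w,
      ∑ σ : {σ : Equiv.Perm (Fin D) // κ ∘ σ = κ},
        (Equiv.Perm.sign σ.1 : ℂ) * x (w ∘ σ.1) = 0) : x = 0 := by
  classical
  by_contra hx
  have hx' : ∃ v, x v ≠ 0 := by
    by_contra h
    push Not at h
    exact hx (funext h)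
  obtain ⟨v0, hv0⟩ := hx'
  have hy : InX M (fun v => (starRingEnd ℂ) (x v)) := by
    intro P hP w
    have h := congrArg (starRingEnd ℂ) (hS P hP w)
    rw [map_sum, map_zero] at h
    exact h
  obtain ⟨w1, hw1, hw1max⟩ := Finset.exists_max_image
    (Finset.univ : Finset (Fin D → Fin n)) (fun v => toLex v) ⟨v0, Finset.mem_univ _⟩
  have h1 := pair_zero x hA (toLex w1) _ hy (fun v _ => hw1max v (Finset.mem_univ _))
  have h2 : ∑ v, ((Complex.normSq (x v) : ℝ) : ℂ) = 0 := by
    rw [← h1]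
    exact Finset.sum_congr rfl (fun v _ => (Complex.mul_conj (x v)).symm)
  rw [← Complex.ofReal_sum] at h2
  have h3 : ∑ v, Complex.normSq (x v) = 0 := by exact_mod_cast h2
  have h4 := (Finset.sum_eq_zero_iff_of_nonneg (fun v _ => Complex.normSq_nonneg (x v))).1 h3 v0
    (Finset.mem_univ _)
  exact hv0 (Complex.normSq_eq_zero.1 h4)

end Vale.Agent.P181.FLAT.H722
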